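import Vale.Agent.P207.N3.H728.SmF
import Vale.Agent.P207.N3.H828.TrF
import Vale.Agent.P207.N3.H266.SmoothOf
import Vale.Agent.P207.N3.H265.GeoX

/-!
# P207, line N3, P12: the smooth alternative, final form

`smooth_false` : if the stable direction is smooth along the unstable leaves, no closed orbit is
split.
-/

noncomputable section

open Set Filter Topology Metric
open scoped ContDiff

set_option maxSynthPendingDepth 3
set_option linter.unusedSectionVars false

namespace Vale.Agent.P207.N3.H728

open H576 H828
open Vale.Agent.P207.N3.H722 (GeoIn HessIn)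

variable {Γ X B : Type} [Group Γ] [MetricSpace X] [ProperSpace X] [MulAction Γ X]
  [IsIsometricSMul Γ X] [TopologicalSpace B] [CompactSpace B] [T2Space B] [MulAction Γ B]
  [ContinuousConstSMul Γ B] {L : Leaf Γ X B}

/-- **P12** over the smooth boundary: no closed orbit is split -/
theorem not_split [MeasurableSpace B] [BorelSpace B] {A : Area L} (H : SmB L A.D) (Fb : Fiber L)
    (o : Orb L) (n : Nor L o) : ¬ n.N.Split :=
  not_split_of H Fb (fun _ _ h => SmB.VV_trFree H h) o n

variable {V : Type} [NormedAddCommGroup V] [NormedSpace ℝ V] [FiniteDimensional ℝ V]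

/-- **P12G** with the joint continuity in the frames -/
theorem smb_of_alt (I : GeoIn L V) (M : Metr L) (hH : HessIn I M)
    (hS : SmoothAlt (Ten.tens M)) {p : V} (hbo : ∀ ξ, I.b ξ p = 0) (D : B → B → ℝ)
    (hD : ∀ x, D (L.em x) (L.ep x) = L.lv x + L.lp x) : SmB L D := by
  have hne : Nonempty B := ⟨L.em (Classical.choice L.nonempty)⟩
  obtain ⟨H, h1, h2, h3⟩ := H266.exists_hess I M hH hS
  have hs := H289.smoothHess_of hH H h1 h2 h3
  exact
    { tau_jc := H289.tau_jc hH hs
      f_jc := H289.D_jc hH hs hbo D hD
      nd := fun q hq => H289.nondeg_of hH hs hbo D hD q.1.1 q.1.2 q.2 hq }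

/-- **P12** : if the stable direction is smooth along the unstable leaves, no closed orbit is
split -/
theorem smooth_false [MeasurableSpace B] [BorelSpace B] (A : Area L) (I : GeoIn L V) (Y : GeoX I)
    (M : Metr L) (hH : HessIn I M) (Fb : Fiber L) (hS : SmoothAlt (Ten.tens M)) (o : Orb L)
    (n : Nor L o) : ¬ n.N.Split := by
  obtain ⟨x, hx⟩ := Y.exists_base
  exact not_split (smb_of_alt I M hH hS hx A.D A.D_eq) Fb o n

end Vale.Agent.P207.N3.H728
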